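import Vale.Agent.P022.H567.Real

/-!
P022, Artin reciprocity: block [RS] (helper406): everything is a norm at a real place of `K` which
stays real in the cyclic extension `L`.
-/

open NumberField IsDedekindDomain TensorProduct Finset

noncomputable section

namespace Vale.Agent.P022.H406

open Vale.Agent.P022.C

variable {K L : Type} [Field K] [Field L] [Algebra K L] {n : ℕ} {σ : L ≃ₐ[K] L}

theorem pow_injOn (h : Cyc K n σ) : Set.InjOn (fun i : ℕ => σ ^ i) (range n : Finset ℕ) := by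
  intro i hi j hj hij
  have hi' : i < orderOf σ := by rw [h.ord]; exact mem_range.1 hi
  have hj' : j < orderOf σ := by rw [h.ord]; exact mem_range.1 hj
  exact pow_injOn_Iio_orderOf hi' hj' hij

theorem finiteDimensional (h : Cyc K n σ) : FiniteDimensional K L :=
  Module.finite_of_finrank_pos (by rw [h.rank]; exact h.pos)

theorem image_pow [FiniteDimensional K L] (h : Cyc K n σ) [DecidableEq (L ≃ₐ[K] L)] :
    (range n).image (fun i : ℕ => σ ^ i) = (univ : Finset (L ≃ₐ[K] L)) := by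
  refine Finset.eq_univ_of_card _ (le_antisymm (Finset.card_le_univ _) ?_)
  rw [Finset.card_image_of_injOn (pow_injOn h), card_range]
  exact (AlgEquiv.card_le).trans_eq h.rank

theorem isGalois [FiniteDimensional K L] (h : Cyc K n σ) : IsGalois K L := by
  classical
  refine IsGalois.of_card_aut_eq_finrank K L ?_
  rw [h.rank, Nat.card_eq_fintype_card, ← Finset.card_univ, ← image_pow h,
    Finset.card_image_of_injOn (pow_injOn h), card_range]

theorem norm_eq [FiniteDimensional K L] (h : Cyc K n σ) (y : L) :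
    algebraMap K L (Algebra.norm K y) = ∏ i ∈ range n, (σ ^ i) y := by
  classical
  have := isGalois h
  rw [Algebra.norm_eq_prod_automorphisms, ← image_pow h,
    Finset.prod_image fun i hi j hj => pow_injOn h hi hj]

/-- scalars times elements of `L` -/
theorem prod_tw (R : Type) [Field R] [Algebra K R] (r : R) (y : L) (n : ℕ) :
    ∏ i ∈ range n, tw R (σ ^ i) (r ⊗ₜ[K] y) = (r ^ n) ⊗ₜ[K] ∏ i ∈ range n, (σ ^ i) y := by
  induction n with
  | zero => simp [Algebra.TensorProduct.one_def]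
  | succ n ih =>
    rw [prod_range_succ, prod_range_succ, ih, pow_succ]
    simp [tw]

/-- a norm from `L` times a scalar which is an `n`-th power is a norm -/
theorem nm_of [FiniteDimensional K L] (h : Cyc K n σ) (R : Type) [Field R] [Algebra K R]
    (a : K) (r : R) (y : L) (hr : algebraMap K R a = r ^ n * algebraMap K R (Algebra.norm K y)) :
    Nm σ n R a := by
  refine ⟨r ⊗ₜ[K] y, ?_⟩
  rw [prod_tw, ← norm_eq h, Algebra.algebraMap_eq_smul_one (Algebra.norm K y),
    TensorProduct.tmul_smul, TensorProduct.smul_tmul', Algebra.smul_def, mul_comm, ← hr]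
  rfl

/-- one negative factor -/
theorem exists_rat {n : ℕ} (hn : 0 < n) (f : ℕ → ℝ) (hf : Set.InjOn f (range n : Finset ℕ)) :
    ∃ q : ℚ, ∏ i ∈ range n, (f i - q) < 0 := by
  classical
  obtain ⟨i₀, hi₀, hmin⟩ := (range n).exists_min_image f ⟨0, mem_range.2 hn⟩
  obtain ⟨q, hq1, hq2⟩ : ∃ q : ℚ, f i₀ < q ∧ ∀ j ∈ (range n).erase i₀, (q : ℝ) < f j := by
    rcases ((range n).erase i₀).eq_empty_or_nonempty with h0 | h0
    · obtain ⟨q, hq, -⟩ := exists_rat_btwn (lt_add_one (f i₀))
      exact ⟨q, hq, fun j hj => by rw [h0] at hj; simp at hj⟩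
    · obtain ⟨j₀, hj₀, hmin'⟩ := ((range n).erase i₀).exists_min_image f h0
      have h1 : f i₀ < f j₀ := by
        refine lt_of_le_of_ne (hmin j₀ (mem_of_mem_erase hj₀)) fun he => ?_
        exact (mem_erase.1 hj₀).1 (hf (mem_of_mem_erase hj₀) hi₀ he.symm)
      obtain ⟨q, hq1, hq2⟩ := exists_rat_btwn h1
      exact ⟨q, hq1, fun j hj => hq2.trans_le (hmin' j hj)⟩
  refine ⟨q, ?_⟩
  rw [← mul_prod_erase _ _ hi₀]
  refine mul_neg_of_neg_of_pos (sub_neg.2 hq1) (prod_pos fun j hj => sub_pos.2 (hq2 j hj))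

/-- [RS] -/
theorem RS : RSStmt := by
  intro K L _ _ _ _ _ n σ h φ c hc hc1 a ha
  let _ := φ.toAlgebra
  have : FiniteDimensional K L := finiteDimensional h
  show Nm σ n ℝ a
  have hφ : ∀ x : K, algebraMap K ℝ x = φ x := fun x => rfl
  have hn : n ≠ 0 := h.pos.ne'
  have hpos : ∀ (t : ℝ), 0 < t → ∃ r : ℝ, r ^ n = t := fun t ht =>
    ⟨t ^ ((n : ℝ)⁻¹), Real.rpow_inv_natCast_pow ht.le hn⟩
  rcases lt_or_gt_of_ne (show φ a ≠ 0 by simpa using ha) with hneg | hp
  · -- the negative case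
    let _ : Algebra K ℂ := ((algebraMap ℝ ℂ).comp φ).toAlgebra
    let ρ : L →ₐ[K] ℂ := IsAlgClosed.lift
    have hρ : ∀ x : K, ρ (algebraMap K L x) = (φ x : ℂ) := fun x => ρ.commutes x
    have hreal : ∀ x : L, (((ρ x).re : ℝ) : ℂ) = ρ x := by
      intro x
      have h1 := hc ρ.toRingHom hρ x
      rw [hc1] at h1
      exact Complex.conj_eq_iff_re.1 h1
    obtain ⟨θ, hθ⟩ := Field.exists_primitive_element K L
    have hinj : Set.InjOn (fun i : ℕ => (ρ ((σ ^ i) θ)).re) (range n : Finset ℕ) := by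
      intro i hi j hj hij
      refine pow_injOn h hi hj ?_
      have h1 : ρ ((σ ^ i) θ) = ρ ((σ ^ j) θ) := by
        rw [← hreal, ← hreal ((σ ^ j) θ)]
        exact congrArg _ hij
      have h2 : (σ ^ i) θ = (σ ^ j) θ := ρ.toRingHom.injective h1
      have h3 : ((σ ^ i : L ≃ₐ[K] L) : L →ₐ[K] L) = ((σ ^ j : L ≃ₐ[K] L) : L →ₐ[K] L) := by
        have h4 : Algebra.adjoin K {θ} = ⊤ := by
          rw [← IntermediateField.adjoin_simple_toSubalgebra_of_isAlgebraic
            (Algebra.IsAlgebraic.isAlgebraic θ), hθ, IntermediateField.top_toSubalgebra]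
        refine AlgHom.ext_of_adjoin_eq_top h4 ?_
        intro x hx
        rw [Set.mem_singleton_iff.1 hx]
        exact h2
      exact AlgEquiv.ext fun x => DFunLike.congr_fun h3 x
    obtain ⟨q, hq⟩ := exists_rat h.pos _ hinj
    have hN : φ (Algebra.norm K (θ - algebraMap ℚ L q)) =
        ∏ i ∈ range n, ((ρ ((σ ^ i) θ)).re - q) := by
      have h1 : (φ (Algebra.norm K (θ - algebraMap ℚ L q)) : ℂ) =
          ((∏ i ∈ range n, ((ρ ((σ ^ i) θ)).re - q) : ℝ) : ℂ) := by
        rw [← hρ, norm_eq h, map_prod, Complex.ofReal_prod]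
        refine prod_congr rfl fun i _ => ?_
        rw [map_sub, map_sub, Complex.ofReal_sub, hreal]
        simp
      exact_mod_cast h1
    rw [← hN] at hq
    obtain ⟨r, hr⟩ := hpos (φ a / φ (Algebra.norm K (θ - algebraMap ℚ L q)))
      (div_pos_of_neg_of_neg hneg hq)
    refine nm_of h ℝ a r (θ - algebraMap ℚ L q) ?_
    rw [hr, hφ, hφ, div_mul_cancel₀ _ hq.ne]
  · obtain ⟨r, hr⟩ := hpos (φ a) hp
    refine nm_of h ℝ a r 1 ?_
    rw [hr, hφ, map_one, map_one, mul_one]

end Vale.Agent.P022.H406
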